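import Vale.Agent.P181.MR.Defs
import Vale.Agent.P181.PL.Basic
import Vale.Agent.P181.TL.H850.JoinP
import Vale.Agent.P181.TL.H410.T9E
import Vale.Agent.P181.TS.H870.Iv

set_option autoImplicit false

/-!
# P181, MR [TAIL]: the final form, from [FIN] and the theorems on main

For `b ≥ C a`, `b < C a L ^ c` (otherwise the near linear theorem) and `w > a ^ 2 / (C L ^ c)`
(otherwise the linear theorem), (LBX) leaves less than `b L ^ c` cells below row `L ^ c`, so one of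
the gaps `λ_{r+1} - λ_{r+2}`, `1 ≤ r < L ^ c`, is at least `a ^ 2 / (C₀ L ^ c₀)`: `r = 1` is
`TwoLongPA`, `r ≥ 2` is `FinM`.
-/

namespace Vale.Agent.P181.MR.H547

open Vale.Agent.P181.T4 (ex)
open Vale.Agent.P181.H280 (plethMult)
open Vale.Agent.P181.PL
open Vale.Agent.P181.SZ (tl)
open Vale.Agent.P181.H467.NT (LinS)
open Vale.Agent.P181.TS.H870 (TailF)
open Vale.Agent.P181.TL
open Vale.Agent.P181.TL.H410 (PLH)

lemma chain {n : ℕ} (lam : Fin n → ℕ) (K : ℕ) (c A : ℝ)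
    (h : ∀ r, 1 ≤ r → r < K → c * ((ex lam r : ℝ) - ex lam (r + 1)) ≤ A) :
    ∀ k, k + 1 ≤ K → c * ((ex lam 1 : ℝ) - ex lam (k + 1)) ≤ k * A := by
  intro k
  induction k with
  | zero =>
    intro _
    simp
  | succ k ih =>
    intro hk
    have h1 := ih (by omega)
    have h2 := h (k + 1) (by omega) (by omega)
    push_cast
    linarith

lemma num {A B C1 Cp P1 P2 Pp W T x y K : ℝ} (hA : 0 < A) (hC1 : 0 < C1) (hP1 : 1 ≤ P1)
    (hP2 : 1 ≤ P2) (hlin : A ^ 2 < C1 * P1 * W) (hb : B < Cp * A * Pp)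
    (hT : T < B * P2) (hK1 : 1 ≤ K) (hK : K ≤ 2 * P2) (hy : y ≤ T)
    (hW : W ≤ T + (K - 1) * x) (hx : 8 * C1 * P1 * P2 ^ 2 * (x - y) ≤ (K - 1) * A ^ 2)
    (hT0 : 0 ≤ T) (ha : 4 * C1 * Cp * (P1 * P2 ^ 2 * Pp) < A) : False := by
  obtain ⟨C0, hC0⟩ : ∃ C0, C0 = 8 * C1 * P1 * P2 ^ 2 := ⟨_, rfl⟩
  have hC0p : 0 < C0 := by rw [hC0]; positivity
  rw [← hC0] at hx
  have hx' : C0 * x ≤ (K - 1) * A ^ 2 + C0 * T := by
    have := mul_le_mul_of_nonneg_left hy hC0p.le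
    linarith
  have hK0 : 0 ≤ K - 1 := by linarith
  have e1 : C0 * W ≤ K * (C0 * T) + (K - 1) ^ 2 * A ^ 2 := by
    have e2 := mul_le_mul_of_nonneg_left hW hC0p.le
    have e3 := mul_le_mul_of_nonneg_left hx' hK0
    nlinarith
  have e2 : 8 * P2 ^ 2 * A ^ 2 < C0 * W := by
    have e3 : 8 * P2 ^ 2 * A ^ 2 < 8 * P2 ^ 2 * (C1 * P1 * W) :=
      mul_lt_mul_of_pos_left hlin (by positivity)
    calc 8 * P2 ^ 2 * A ^ 2 < 8 * P2 ^ 2 * (C1 * P1 * W) := e3
      _ = C0 * W := by rw [hC0]; ring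
  have e3 : (K - 1) ^ 2 ≤ 4 * P2 ^ 2 := by nlinarith
  have e4 : (K - 1) ^ 2 * A ^ 2 ≤ 4 * P2 ^ 2 * A ^ 2 :=
    mul_le_mul_of_nonneg_right e3 (by positivity)
  have e5 : 4 * P2 ^ 2 * A ^ 2 < K * (C0 * T) := by linarith
  have e6 : K * (C0 * T) ≤ 2 * P2 * (C0 * T) :=
    mul_le_mul_of_nonneg_right hK (by positivity)
  have e7 : T ≤ Cp * A * Pp * P2 :=
    hT.le.trans (mul_le_mul_of_nonneg_right hb.le (by linarith))
  have e8 : 2 * P2 * (C0 * T) ≤ 2 * P2 * (C0 * (Cp * A * Pp * P2)) :=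
    mul_le_mul_of_nonneg_left (mul_le_mul_of_nonneg_left e7 hC0p.le) (by positivity)
  have e9 : 2 * P2 * (C0 * (Cp * A * Pp * P2)) =
      4 * P2 ^ 2 * A * (4 * C1 * Cp * (P1 * P2 ^ 2 * Pp)) := by
    rw [hC0]
    ring
  have e10 : 4 * P2 ^ 2 * A * (4 * C1 * Cp * (P1 * P2 ^ 2 * Pp)) < 4 * P2 ^ 2 * A * A :=
    mul_lt_mul_of_pos_left ha (by positivity)
  nlinarith

lemma two_le {K : ℕ} {P : ℝ} (hP : 1 ≤ P) (hK : K = ⌈P⌉₊) : 1 ≤ K ∧ (K : ℝ) ≤ 2 * P := by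
  constructor
  · rw [hK]
    exact Nat.one_le_ceil_iff.mpr (by linarith)
  · rw [hK]
    have := Nat.ceil_lt_add_one (show (0 : ℝ) ≤ P by linarith)
    linarith

lemma dn_filter {n : ℕ} (lam : Fin n → ℕ) (P : ℝ) :
    ∑ i ∈ Finset.univ.filter (fun i : Fin n => P ≤ ((i : ℕ) : ℝ)), (lam i : ℝ) =
      (dn lam ⌈P⌉₊ : ℝ) := by
  unfold dn
  rw [Finset.sum_filter]
  push_cast
  apply Finset.sum_congr rfl
  intro i _
  by_cases h : P ≤ ((i : ℕ) : ℝ)
  · rw [if_pos h, if_pos (Nat.ceil_le.mpr h)]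
  · rw [if_neg h, if_neg (fun h' => h (Nat.ceil_le.mp h'))]

lemma dn_tl {m : ℕ} (lam : Fin (m + 1) → ℕ) : dn lam 1 = ∑ i, tl lam i := by
  have h0 := dn_zero lam
  have h1 : dn lam 0 = ex lam 0 + dn lam 1 := dn_succ lam 0
  have h2 : ex lam 0 = lam 0 := exlt lam (Nat.succ_pos m)
  have h3 := Fin.sum_univ_succ lam
  have h4 : ∑ i, tl lam i = ∑ i : Fin m, lam i.succ := rfl
  omega

lemma dn_tl2 {n : ℕ} (lam : Fin (n + 2) → ℕ) : dn lam 2 = ∑ i : Fin n, lam i.succ.succ := by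
  have h1 : dn lam 1 = ex lam 1 + dn lam 2 := dn_succ lam 1
  have h2 : ex lam 1 = lam 1 := exlt lam (by omega : 1 < n + 2)
  have h3 := dn_tl lam
  have h4 : ∑ i, tl lam i = tl lam 0 + ∑ i : Fin n, tl lam i.succ := Fin.sum_univ_succ _
  have h5 : tl lam 0 = lam 1 := rfl
  have h6 : ∑ i : Fin n, tl lam i.succ = ∑ i : Fin n, lam i.succ.succ := rfl
  omega

/-- **[TAIL]** from [FIN], the linear theorem, `TailF`, the near linear theorem and T9+. -/
theorem tail (hF : FinM) (hL : LinS) (hT : TailF) (hP : PLH) (h9 : TwoLongPA) : TailM := by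
  obtain ⟨C1, c1, hC1, h1⟩ := hL
  obtain ⟨c2, h2⟩ := hT 1 one_pos
  obtain ⟨Cp, cp, hp⟩ := hP
  obtain ⟨CF, hCF, hf⟩ := hF (8 * C1) ((c1 + 2 * c2 : ℕ) : ℝ) (by positivity) (Nat.cast_nonneg _)
  obtain ⟨C9, c9, hC9, hc9, h9'⟩ := h9 (8 * C1) ((c1 + 2 * c2 : ℕ) : ℝ) (by positivity)
    (Nat.cast_nonneg _)
  obtain ⟨C, hC⟩ : ∃ C : ℝ, C = 122 + CF + C9 + 2 * (1 + C1) * |Cp| := ⟨_, rfl⟩
  obtain ⟨c, hc⟩ : ∃ c : ℕ, c = c1 + 2 * c2 + cp + cp + ⌈c9⌉₊ := ⟨_, rfl⟩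
  have habs : 0 ≤ |Cp| := abs_nonneg _
  have hCx : 0 ≤ 2 * (1 + C1) * |Cp| := by positivity
  have hC122 : 122 ≤ C := by linarith
  have hCCF : CF ≤ C := by linarith
  have hCC9 : C9 ≤ C := by linarith
  have hCCp : 2 * (1 + C1) * |Cp| ≤ C := by linarith
  refine ⟨C, c, by linarith, ?_⟩
  intro a b n lam hanti hsum hab hw hD
  obtain ⟨L, hLdef⟩ : ∃ L : ℝ, L = 1 + Real.log a := ⟨_, rfl⟩
  have hL1 : 1 ≤ L := by
    rw [hLdef]
    linarith [Real.log_natCast_nonneg a]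
  have ha0 : (0 : ℝ) ≤ a := Nat.cast_nonneg _
  have hb0 : (0 : ℝ) ≤ b := Nat.cast_nonneg _
  have h5 : 5 * a ≤ b := by
    have : (5 * a : ℝ) ≤ b := le_trans (mul_le_mul_of_nonneg_right (by linarith) ha0) hab
    exact_mod_cast this
  by_cases hlin : C1 * (1 + Real.log a) ^ c1 * (dn lam 1 : ℝ) ≤ (a : ℝ) ^ 2
  · exact h1 a b h5 (n + 2) lam hlin
  by_cases hpl : Cp * a * (1 + Real.log a) ^ cp ≤ b
  · exact hp a b hpl (n + 2) lam
  by_cases htf : (b : ℝ) * (1 + Real.log a) ^ c2 ≤ (dn lam ⌈(1 + Real.log a) ^ c2⌉₊ : ℝ)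
  · refine h2 a b (n + 2) lam ?_ ?_
    · calc (1 + 1) * (a : ℝ) ≤ C * a := mul_le_mul_of_nonneg_right (by linarith) ha0
        _ ≤ b := hab
    · rw [dn_filter]
      exact htf
  rw [← hLdef] at hlin hpl htf hD
  push Not at hlin hpl htf
  have hP1 : (1 : ℝ) ≤ L ^ c1 := one_le_pow₀ hL1
  have hP2 : (1 : ℝ) ≤ L ^ c2 := one_le_pow₀ hL1
  have hPp : (1 : ℝ) ≤ L ^ cp := one_le_pow₀ hL1
  have hapos : 0 < a := by
    rcases Nat.eq_zero_or_pos a with h | h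
    · exfalso
      rw [h, Nat.cast_zero, mul_zero, zero_mul] at hpl
      linarith
    · exact h
  have hA : (0 : ℝ) < a := by exact_mod_cast hapos
  have hCp : 0 < Cp := by
    by_contra hcon
    have e1 : Cp * a * L ^ cp ≤ 0 :=
      mul_nonpos_of_nonpos_of_nonneg (mul_nonpos_of_nonpos_of_nonneg (by linarith) ha0)
        (by positivity)
    linarith
  rw [abs_of_pos hCp] at hCCp
  obtain ⟨K, hK⟩ : ∃ K, K = ⌈L ^ c2⌉₊ := ⟨_, rfl⟩
  obtain ⟨hK1, hK2⟩ := two_le hP2 hK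
  rw [← hK] at htf
  have eW := dn_tl lam
  have eD := dn_tl2 lam
  have eD' : ((dn lam 2 : ℕ) : ℝ) = ∑ i : Fin n, (lam i.succ.succ : ℝ) := by
    rw [eD]
    push_cast
    rfl
  have eW' : ((dn lam 1 : ℕ) : ℝ) = ∑ i, (tl lam i : ℝ) := by
    rw [eW]
    push_cast
    rfl
  rw [← eD'] at hD
  rw [← eW'] at hw
  have hDW : (dn lam 2 : ℝ) ≤ dn lam 1 := by exact_mod_cast dn_anti lam (by omega : 1 ≤ 2)
  -- `a` is larger than a power of the logarithm
  have ha : 4 * C1 * Cp * (L ^ c1 * (L ^ c2) ^ 2 * L ^ cp) < a := by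
    have e1 : C * (C * L ^ c * a) ≤ a * b :=
      (mul_le_mul_of_nonneg_left (hD.trans hDW) (by linarith)).trans hw
    have e2 : (a : ℝ) * b < a * (Cp * a * L ^ cp) := mul_lt_mul_of_pos_left hpl hA
    have e3 : C ^ 2 * L ^ c * a < Cp * a * L ^ cp * a := by nlinarith
    have e4 : C ^ 2 * L ^ c < Cp * a * L ^ cp := lt_of_mul_lt_mul_right e3 ha0
    have e5 : L ^ (c1 + 2 * c2 + cp + cp) ≤ L ^ c := by
      rw [hc]
      exact pow_le_pow_right₀ hL1 (Nat.le_add_right _ _)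
    have e6 : C ^ 2 * L ^ (c1 + 2 * c2 + cp) * L ^ cp < Cp * a * L ^ cp := by
      refine lt_of_le_of_lt ?_ e4
      rw [mul_assoc, ← pow_add]
      exact mul_le_mul_of_nonneg_left e5 (by positivity)
    have e7 : C ^ 2 * L ^ (c1 + 2 * c2 + cp) < Cp * a :=
      lt_of_mul_lt_mul_right e6 (by positivity)
    have e8 : 4 * C1 * Cp * Cp ≤ C ^ 2 := by
      have e9 : (2 * (1 + C1) * Cp) ^ 2 ≤ C ^ 2 := pow_le_pow_left₀ (by positivity) hCCp 2
      refine le_trans ?_ e9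
      have e10 : (2 * (1 + C1) * Cp) ^ 2 = 4 * C1 * Cp * Cp + 4 * Cp ^ 2 * (1 + C1 + C1 ^ 2) := by
        ring
      rw [e10]
      have : 0 ≤ 4 * Cp ^ 2 * (1 + C1 + C1 ^ 2) := by positivity
      linarith
    have e11 : 4 * C1 * Cp * Cp * L ^ (c1 + 2 * c2 + cp) < Cp * a :=
      lt_of_le_of_lt (mul_le_mul_of_nonneg_right e8 (by positivity)) e7
    have e12 : Cp * (4 * C1 * Cp * L ^ (c1 + 2 * c2 + cp)) < Cp * a := by
      calc Cp * (4 * C1 * Cp * L ^ (c1 + 2 * c2 + cp)) =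
          4 * C1 * Cp * Cp * L ^ (c1 + 2 * c2 + cp) := by ring
        _ < Cp * a := e11
    have e13 := lt_of_mul_lt_mul_left e12 hCp.le
    have e14 : L ^ c1 * (L ^ c2) ^ 2 * L ^ cp = L ^ (c1 + 2 * c2 + cp) := by
      rw [← pow_mul, ← pow_add, ← pow_add, mul_comm c2 2]
    rw [e14]
    exact e13
  -- a long gap
  obtain ⟨r, hr1, hrK, hgap⟩ : ∃ r, 1 ≤ r ∧ r < K ∧
      (a : ℝ) ^ 2 ≤ 8 * C1 * L ^ c1 * (L ^ c2) ^ 2 * ((ex lam r : ℝ) - ex lam (r + 1)) := by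
    by_contra hcon
    push Not at hcon
    have e1 := chain lam K (8 * C1 * L ^ c1 * (L ^ c2) ^ 2) ((a : ℝ) ^ 2)
      (fun r h h' => (hcon r h h').le) (K - 1) (by omega)
    have e2 : K - 1 + 1 = K := by omega
    rw [e2, Nat.cast_sub hK1, Nat.cast_one] at e1
    have e3 : (ex lam K : ℝ) ≤ dn lam K := by exact_mod_cast ex_le_dn lam K
    have e4 : (dn lam 1 : ℝ) ≤ dn lam K + ((K : ℝ) - 1) * ex lam 1 := by
      have e5 := dn_le hanti 1 (K - 1)
      rw [show 1 + (K - 1) = K by omega] at e5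
      have e6 : (dn lam 1 : ℝ) ≤ (dn lam K : ℝ) + ((K - 1 : ℕ) : ℝ) * (ex lam 1 : ℝ) := by
        exact_mod_cast e5
      rwa [Nat.cast_sub hK1, Nat.cast_one] at e6
    exact num hA hC1 hP1 hP2 hlin hpl htf (by exact_mod_cast hK1) hK2 e3 e4 e1
      (Nat.cast_nonneg _) ha
  have hC0 : 8 * C1 * L ^ c1 * (L ^ c2) ^ 2 = 8 * C1 * L ^ (c1 + 2 * c2) := by
    rw [pow_add, mul_comm 2 c2, pow_mul]
    ring
  rw [hC0] at hgap
  have hC0p : 0 < 8 * C1 * L ^ (c1 + 2 * c2) := by positivity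
  have hrn : r < n + 2 := by
    by_contra hcon
    have e1 : ex lam r = 0 := exge lam (by omega)
    have e2 : ex lam (r + 1) = 0 := exge lam (by omega)
    rw [e1, e2, Nat.cast_zero, sub_zero, mul_zero] at hgap
    have : 0 < (a : ℝ) ^ 2 := by positivity
    linarith
  rcases Nat.lt_or_ge r 2 with hr2 | hr2
  · -- `r = 1`
    obtain rfl : r = 1 := by omega
    rcases Nat.eq_zero_or_pos n with hn | hn
    · exfalso
      have e1 : dn lam 2 = 0 := dn_ge lam (by omega)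
      rw [e1, Nat.cast_zero] at hD
      have : 0 < C * L ^ c * a := by positivity
      linarith
    obtain ⟨k, rfl⟩ := Nat.exists_eq_add_of_le' hn
    have f1 : ex lam 1 = lam 1 := exlt lam (by omega : 1 < k + 1 + 2)
    have f2 : ex lam (1 + 1) = lam 2 := exlt lam (by omega : 2 < k + 1 + 2)
    have f3 : dn2 (k := k + 1) lam = dn lam 2 := eD.symm
    have f4 : dn lam 1 = lam 1 + dn lam 2 := by
      have := dn_succ lam 1
      rwa [f1] at this
    have f5 : lam 0 + dn lam 1 = a * b := by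
      have g1 := dn_zero lam
      have g2 := dn_succ lam 0
      have g3 : ex lam 0 = lam 0 := exlt lam (Nat.succ_pos _)
      rw [g3, g1, hsum] at g2
      exact g2.symm
    rw [f1, f2] at hgap
    refine h9' a b k lam hanti hsum hapos ?_ ?_ ?_
    · rw [Real.rpow_natCast, ← hLdef]
      exact hgap
    · rw [f3, ← hLdef]
      refine le_trans ?_ hD
      have e6 : L ^ c9 ≤ L ^ c := by
        rw [← Real.rpow_natCast L c]
        apply Real.rpow_le_rpow_of_exponent_le hL1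
        refine (Nat.le_ceil c9).trans ?_
        exact_mod_cast (by omega : ⌈c9⌉₊ ≤ c)
      exact mul_le_mul_of_nonneg_right (mul_le_mul hCC9 e6 (by positivity) (by linarith)) ha0
    · rw [f3]
      have g1 : (122 : ℝ) * dn lam 1 ≤ a * b :=
        (mul_le_mul_of_nonneg_right hC122 (Nat.cast_nonneg _)).trans hw
      have g2 : 122 * dn lam 1 ≤ a * b := by exact_mod_cast g1
      have g3 : (122 : ℝ) * a ≤ b := (mul_le_mul_of_nonneg_right hC122 ha0).trans hab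
      have g4 : 122 * a ≤ b := by exact_mod_cast g3
      have g5 : 122 * a ^ 2 ≤ a * b := by
        calc 122 * a ^ 2 = a * (122 * a) := by ring
          _ ≤ a * b := Nat.mul_le_mul_left _ g4
      omega
  · -- `r ≥ 2`
    refine hf a b r (n + 1) lam hanti hsum ?_ hr2 (by omega) ?_ ?_
    · exact (mul_le_mul_of_nonneg_right hCCF ha0).trans hab
    · rw [← eW]
      have g1 : (100 : ℝ) * dn lam 1 ≤ a * b :=
        (mul_le_mul_of_nonneg_right (by linarith) (Nat.cast_nonneg _)).trans hw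
      exact_mod_cast g1
    · intro i hi
      have e1 : ex lam r ≤ tl lam i := by
        have : tl lam i = ex lam ((i : ℕ) + 1) := (exfin lam i.succ).symm
        rw [this]
        exact exanti hanti (by omega)
      rw [Real.rpow_natCast, ← hLdef]
      constructor
      · refine hgap.trans (mul_le_mul_of_nonneg_left ?_ hC0p.le)
        have e2 : (ex lam r : ℝ) ≤ tl lam i := by exact_mod_cast e1
        have e3 : (0 : ℝ) ≤ ex lam (r + 1) := Nat.cast_nonneg _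
        linarith
      · intro j hj
        refine hgap.trans (mul_le_mul_of_nonneg_left ?_ hC0p.le)
        have e2 : (ex lam r : ℝ) ≤ tl lam i := by exact_mod_cast e1
        have e3 : tl lam j ≤ ex lam (r + 1) := by
          have : tl lam j = ex lam ((j : ℕ) + 1) := (exfin lam j.succ).symm
          rw [this]
          exact exanti hanti (by omega)
        have e4 : (tl lam j : ℝ) ≤ ex lam (r + 1) := by exact_mod_cast e3
        linarith

end Vale.Agent.P181.MR.H547
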